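import Vale.Agent.P347.Quarter.Compose
import Vale.Agent.P347.Quarter.Oracle
import Vale.Agent.P347.Shift.Room
import Vale.Agent.P347.Shift.StepSpec

/-!
# P347: the chain and the cascade from a step in mean distance

A reserved part of the fresh noise makes bounded observables Lipschitz, so the mean distance of
one step becomes total variation; these
errors add linearly through the exact chain, and through halvings that keep three quarters.
-/

open MeasureTheory ProbabilityTheory Real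
open scoped RealInnerProductSpace

namespace Vale.Agent.P347.Shift

open Quarter

variable {d : ℕ}

/-- Reserved noise turns mean distance into total variation. -/
lemma Near.smooth {ν μ : Measure (Sp d)} {e σ : ℝ} (hn : Near ν μ e) (hσ : 0 < σ)
    {f : Sp d → ℝ} (hf : Phases.Bdd f) :
    |(∫ x, fwd σ f x ∂ν) - ∫ x, fwd σ f x ∂μ| ≤ e / √σ := by
  have hs := sqrt_pos.2 hσ
  refine (hn (fwd σ f) (√σ)⁻¹ 1 (by positivity) (Phases.bdd_fwd hf σ).2 fun x y => ?_).trans_eq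
    (inv_mul_eq_div _ _)
  have h := abs_translate_le (φ := fun z => f (√σ • z)) (hf.1.comp (measurable_const_smul √σ))
    (fun z => hf.2 _) ((√σ)⁻¹ • x) ((√σ)⁻¹ • y)
  simp only [smul_add, smul_inv_smul₀ hs.ne', ← smul_sub, norm_smul, norm_inv,
    norm_of_nonneg hs.le, one_mul] at h
  simpa only [fwd_eq, add_comm] using h

/-- Fresh noise of variance `σ`. -/
noncomputable def noise (σ : ℝ) : Prog (Sp d) (ℝ × Sp d) (Sp d) (Sp d) :=
  Prog.ofFun (Sp d) (gd d) (fun w x => x + √σ • w) (by fun_prop)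

/-- A step followed by fresh noise averages the smoothed observable. -/
lemma integral_noise (p : Prog (Sp d) (ℝ × Sp d) (Sp d) (Sp d)) {O : Sp d → ℝ × Sp d}
    (hO : Measurable O) (σ : ℝ) {f : Sp d → ℝ} (hf : Phases.Bdd f) (y : Sp d) :
    ∫ x, f x ∂(p.andThen (noise σ)).law O y = ∫ x, fwd σ f x ∂p.law O y := by
  rw [p.integral_andThen (noise σ) hO hf.1 hf.2]
  refine integral_congr_ae (ae_of_all _ fun b => ?_)
  simp only [(noise σ).integral_law hO hf.1, fwd_eq]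
  rfl

/-- One smoothed step against the oracle law plus noise. -/
lemma smoothed_step {V : Sp d → ℝ} {G : Sp d → Sp d} {H : Sp d → Sp d →L[ℝ] Sp d}
    (hV : IsPot V G H 1 2) {h σ e : ℝ} (hh : 0 < h) (hσ : 0 < σ) {y : Sp d}
    (p : Prog (Sp d) (ℝ × Sp d) (Sp d) (Sp d)) {O : Sp d → ℝ × Sp d} (hO : Measurable O)
    (hn : Near (p.law O y) (halfLaw V h y) e) {f : Sp d → ℝ} (hf : Phases.Bdd f) :
    |(∫ x, f x ∂(p.andThen (noise σ)).law O y) - ∫ x, fwd (h / 2 + σ) f x ∂rgo V h y| ≤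
      e / √σ := by
  have e1 : ∫ x, fwd σ f x ∂halfLaw V h y = ∫ x, fwd (h / 2 + σ) f x ∂rgo V h y := by
    rw [Phases.integral_halfLaw hV hh.le (Phases.bdd_fwd hf σ) y]
    exact integral_congr_ae (ae_of_all _ fun u =>
      fwd_fwd (by linarith) hσ.le ⟨hf.1, 1, hf.2⟩ u)
  rw [integral_noise p hO σ hf y, ← e1]
  exact hn.smooth hσ hf

/-- `n` steps against the exact chain: the errors add linearly. -/
lemma chain_close {V : Sp d → ℝ} {G : Sp d → Sp d} {H : Sp d → Sp d →L[ℝ] Sp d}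
    (hV : IsPot V G H 1 2) {h e T R : ℝ} (hh : 0 < h) (he : 0 ≤ e)
    (q : Prog (Sp d) (ℝ × Sp d) (Sp d) (Sp d)) {O : Sp d → ℝ × Sp d} (hO : Measurable O)
    (hstep : ∀ y, ‖y‖ < R → ∀ {f : Sp d → ℝ}, Phases.Bdd f →
      |(∫ x, f x ∂q.law O y) - prox V h f y| ≤ e)
    (htail : ∀ i, (prox V h)^[i] (Phases.outer d R) 0 ≤ T) (n : ℕ) {f : Sp d → ℝ}
    (hf : Phases.Bdd f) :
    |(∫ x, f x ∂(q.iter n).law O 0) - (prox V h)^[n] f 0| ≤ n * (e + 2 * T) := by
  rw [q.integral_iter hO n hf.1 hf.2]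
  refine (room_add (fun g y => ∫ x, g x ∂q.law O y) (prox V h) {g | Phases.Bdd g}
    (fun g hg => ⟨q.measurable_integral_law hO hg.1, q.abs_integral_law_le hO hg.2⟩) 0
    (fun _ => e + 2 * T) n (fun i _ g hg => ?_) f hf).trans_eq
      (by rw [Finset.sum_const, Finset.card_range, nsmul_eq_mul])
  have hP := (markov_prox hV hh).iterate i
  have hu : Phases.Bdd fun y => ∫ x, g x ∂q.law O y :=
    ⟨q.measurable_integral_law hO hg.1, q.abs_integral_law_le hO hg.2⟩
  have hv : Phases.Bdd (prox V h g) :=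
    ⟨((markov_prox hV hh).bdd ⟨hg.1, 1, hg.2⟩).1,
      fun y => by simpa using Phases.abs_prox_iterate hV hh.le hg.2 1 y⟩
  have bu : Quarter.Bdd fun y => ∫ x, g x ∂q.law O y := ⟨hu.1, 1, hu.2⟩
  have bv : Quarter.Bdd (prox V h g) := ⟨hv.1, 1, hv.2⟩
  have bo : Quarter.Bdd (Phases.outer d R) :=
    ⟨(Phases.bdd_outer R).1, 1, (Phases.bdd_outer R).2⟩
  rw [← hP.sub bu bv]
  refine (hP.abs_le (bu.sub bv) ((bdd_const e).add (bo.const_mul 2))
    (Phases.close_outer he hu.2 hv.2 fun y hy => hstep y hy hg) 0).trans ?_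
  rw [hP.add (bdd_const e) (bo.const_mul 2), hP.const, hP.smul bo]
  linarith [htail i]

/-- One backward step, averaged over the smoothed target. -/
lemma back_step {V : Sp d → ℝ} {G : Sp d → Sp d} {H : Sp d → Sp d →L[ℝ] Sp d}
    (hV : IsPot V G H 1 2) {h e T R : ℝ} (hh : 0 < h) (he : 0 ≤ e)
    (htail : ∫ x, fwd h (Phases.outer d R) x ∂piLaw V ≤ T) {u v : Sp d → ℝ} (hu : Phases.Bdd u)
    (hv : Phases.Bdd v) (hc : ∀ y, ‖y‖ < R → |u y - ∫ x, v x ∂rgo V h y| ≤ e) :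
    |(∫ x, fwd h u x ∂piLaw V) - ∫ x, v x ∂piLaw V| ≤ e + 2 * T := by
  have := (isProb_rgo hV le_rfl (0 : Sp d)).2.2
  rw [← rgo_invariant hV hh hv.1 hv.2]
  have bL := Phases.bdd_rgo hV hh.le hv
  have bo := Phases.bdd_outer (d := d) R
  refine (Phases.int_close (e := e) (Phases.bdd_fwd hu h) (Phases.bdd_fwd bL h)
    (Phases.bdd_fwd bo h) fun x => ?_).trans (by linarith)
  exact Phases.int_close (hu.comp (by fun_prop)) (bL.comp (by fun_prop)) (bo.comp (by fun_prop))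
    fun w => Phases.close_outer he hu.2 bL.2 hc _

/-- `J` halvings that keep three quarters, then the last draw. -/
lemma exists_descent {lo hi e T R C₂ c₂ c : ℝ} (hd : 1 ≤ d) (he : 0 ≤ e) (hlo : 0 < lo)
    (hhi : hi ≤ 1 / 4) (hC₂ : 0 ≤ C₂)
    (hlast : ∀ {h : ℝ}, 0 < h → h ≤ 1 / 4 → h ^ 2 * d ≤ c₂ →
      ∀ {V : Sp d → ℝ} {G : Sp d → Sp d} {H : Sp d → Sp d →L[ℝ] Sp d}, IsPot V G H 1 2 →
      G 0 = 0 → ∀ (M : ℕ) (y : Sp d), (2 * h) ^ M * ‖y‖ ≤ √(h * d) →
      ∀ {f : Sp d → ℝ}, Measurable f → (∀ x, |f x| ≤ 1) →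
        |lastOp G h M f y - ∫ x, f x ∂rgo V h y| ≤ C₂ * h * √d)
    (hstep : ∀ h, lo ≤ h → h ≤ hi → ∃ q : Prog (Sp d) (ℝ × Sp d) (Sp d) (Sp d),
      (q.cost : ℝ) ≤ c ∧ ∀ {V : Sp d → ℝ} {G : Sp d → Sp d} {H : Sp d → Sp d →L[ℝ] Sp d},
        IsPot V G H 1 2 → G 0 = 0 → Continuous V → ∀ y, ‖y‖ < R → ∀ {f : Sp d → ℝ},
        Phases.Bdd f →
        |(∫ x, f x ∂q.law (fun x => (V x, G x)) y) - ∫ x, fwd (h / 2 + h / 4) f x ∂rgo V h y| ≤
          e) (M : ℕ) :
    ∀ (J : ℕ) (h : ℝ), lo ≤ h * (3 / 4) ^ J → h ≤ hi → (h * (3 / 4) ^ J) ^ 2 * d ≤ c₂ →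
      (2 * (h * (3 / 4) ^ J)) ^ M * R ≤ √(h * (3 / 4) ^ J * d) →
      ∃ q : Prog (Sp d) (ℝ × Sp d) (Sp d) (Sp d), (q.cost : ℝ) ≤ J * c + M ∧
        ∀ {V : Sp d → ℝ} {G : Sp d → Sp d} {H : Sp d → Sp d →L[ℝ] Sp d},
          IsPot V G H 1 2 → G 0 = 0 → Continuous V →
          (∀ t : ℝ, 0 < t → t ≤ 1 / 4 → ∫ x, fwd t (Phases.outer d R) x ∂piLaw V ≤ T) →
          ∀ {f : Sp d → ℝ}, Phases.Bdd f →
            |(∫ x, fwd h (fun y => ∫ z, f z ∂q.law (fun x => (V x, G x)) y) x ∂piLaw V) -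
                ∫ x, f x ∂piLaw V| ≤
              J * (e + 2 * T) + (C₂ * (h * (3 / 4) ^ J) * √d + 2 * T) := by
  intro J
  induction J with
  | zero =>
    intro h hl hu h2 hM
    simp only [pow_zero, mul_one] at hl h2 hM
    obtain ⟨q, hq, hql⟩ := (calc_last (d := d) h M).draw (gd d)
    refine ⟨q, by simpa using hq, fun {V G H} hV hG0 hVc htail {f} hf => ?_⟩
    have hh : 0 < h := hlo.trans_le hl
    have hO : Measurable fun x => (V x, G x) := (hVc.prodMk hV.continuous_grad).measurable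
    simp only [pow_zero, mul_one, Nat.cast_zero, zero_mul, zero_add]
    refine back_step hV hh (by positivity) (htail h hh (hu.trans hhi))
      ⟨q.measurable_integral_law hO hf.1, q.abs_integral_law_le hO hf.2⟩ hf fun y hy => ?_
    rw [(hql hVc hV.continuous_grad).2 hf.1 hf.2 y]
    exact hlast hh (hu.trans hhi) h2 hV hG0 M y
      ((mul_le_mul_of_nonneg_left hy.le (by positivity)).trans hM) hf.1 hf.2
  | succ J ih =>
    intro h hl hu h2 hM
    have e3 : 3 / 4 * h * (3 / 4) ^ J = h * (3 / 4) ^ (J + 1) := by rw [pow_succ]; ring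
    have hh : 0 < h := pos_of_mul_pos_left (hlo.trans_le hl) (by positivity)
    obtain ⟨p, hp, hps⟩ := hstep h
      (hl.trans (mul_le_of_le_one_right hh.le (pow_le_one₀ (by norm_num) (by norm_num)))) hu
    obtain ⟨r, hr, hrs⟩ := ih (3 / 4 * h) (by rw [e3]; exact hl) (by linarith)
      (by rw [e3]; exact h2) (by rw [e3]; exact hM)
    refine ⟨p.andThen r, ?_, fun {V G H} hV hG0 hVc htail {f} hf => ?_⟩
    · rw [Prog.cost_andThen]
      push_cast
      linarith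
    have hO : Measurable fun x => (V x, G x) := (hVc.prodMk hV.continuous_grad).measurable
    set g := fun y => ∫ z, f z ∂r.law (fun x => (V x, G x)) y with hg
    have bg : Phases.Bdd g := ⟨r.measurable_integral_law hO hf.1, r.abs_integral_law_le hO hf.2⟩
    have h1 : |(∫ x, fwd h (fun y => ∫ z, f z ∂(p.andThen r).law (fun x => (V x, G x)) y) x
        ∂piLaw V) - ∫ x, fwd (3 / 4 * h) g x ∂piLaw V| ≤ e + 2 * T := by
      refine back_step hV hh he (htail h hh (hu.trans hhi))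
        ⟨(p.andThen r).measurable_integral_law hO hf.1,
          (p.andThen r).abs_integral_law_le hO hf.2⟩ (Phases.bdd_fwd bg _) fun y hy => ?_
      rw [p.integral_andThen r hO hf.1 hf.2, show 3 / 4 * h = h / 2 + h / 4 by ring]
      exact hps hV hG0 hVc y hy bg
    have h3 := hrs hV hG0 hVc htail hf
    rw [e3, ← hg] at h3
    push_cast
    linarith [abs_sub_le
      (∫ x, fwd h (fun y => ∫ z, f z ∂(p.andThen r).law (fun x => (V x, G x)) y) x ∂piLaw V)
      (∫ x, fwd (3 / 4 * h) g x ∂piLaw V) (∫ x, f x ∂piLaw V)]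

end Vale.Agent.P347.Shift
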